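import Vale.Agent.P047.Flip

namespace Vale.Agent.Results.P047.ConicalJunta

open Finset Vale.Agent.P047

/-- If `f : {-1,1}^n → {-1,1}` is such that `(1+f)/2` is a nonnegative combination of indicators
of subcubes of codimension at most `w` (for instance if `f⁻¹(1)` is a disjoint union of such
subcubes), then `f` has degree at most `w` and `∑ |\hat f({i})| ≤ 2 sqrt (w / e)`. -/
theorem result {n w : ℕ} {ι : Type} [Fintype ι] (f : (Fin n → Bool) → ℝ)
    (hf : ∀ x, f x = 1 ∨ f x = -1)
    (ρ : ι → Fin n → Option Bool) (c : ι → ℝ) (hc : ∀ j, 0 ≤ c j)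
    (hw : ∀ j, codim (ρ j) ≤ w)
    (hrep : ∀ x, (1 + f x) / 2 = ∑ j, c j * cubeInd (ρ j) x) :
    (∀ S : Finset (Fin n), w < S.card → cubeFourier f S = 0) ∧
      ∑ i, |cubeFourier f {i}| ≤ 2 * Real.sqrt (w / Real.exp 1) := by
  constructor
  · intro S hS
    have hf2 : ∀ x, f x = 2 * (∑ j, c j * cubeInd (ρ j) x) - 1 := by
      intro x
      rw [← hrep x]; ring
    unfold cubeFourier
    have : ∑ x : Fin n → Bool, f x * ∏ i ∈ S, sgn (x i) = 0 := by
      calc ∑ x : Fin n → Bool, f x * ∏ i ∈ S, sgn (x i)
          = ∑ x : Fin n → Bool, ((∑ j, 2 * c j * (cubeInd (ρ j) x * ∏ i ∈ S, sgn (x i)))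
              - ∏ i ∈ S, sgn (x i)) := by
            apply Finset.sum_congr rfl
            intro x _
            rw [hf2 x, sub_mul, one_mul, Finset.mul_sum, Finset.sum_mul]
            congr 1
            apply Finset.sum_congr rfl
            intro j _
            ring
        _ = (∑ j, ∑ x : Fin n → Bool, 2 * c j * (cubeInd (ρ j) x * ∏ i ∈ S, sgn (x i)))
              - ∑ x : Fin n → Bool, ∏ i ∈ S, sgn (x i) := by
            rw [Finset.sum_sub_distrib, Finset.sum_comm]
        _ = 0 := by
            rw [sum_chi_zero S (by omega), sub_zero]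
            apply Finset.sum_eq_zero
            intro j _
            rw [← Finset.mul_sum, sum_cube_chi_zero (ρ j) S (lt_of_le_of_lt (hw j) hS), mul_zero]
    rw [this, zero_div]
  · -- flip coordinates with negative coefficient
    classical
    set e : Fin n → Bool := fun i => decide (fourierOne f i < 0) with he
    set g : (Fin n → Bool) → ℝ := fun x => f (flip e x) with hg
    have habs : ∀ i, |cubeFourier f {i}| = fourierOne g i := by
      intro i
      rw [cubeFourier_singleton, hg, fourierOne_flip]
      by_cases h : fourierOne f i < 0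
      · simp [he, h, abs_of_neg h]
      · simp [he, h, abs_of_nonneg (not_lt.mp h)]
    rw [Finset.sum_congr rfl (fun i _ => habs i)]
    have h2 : ∀ i, fourierOne g i = 2 * fourierOne (fun x => (1 + g x) / 2) i :=
      fun i => fourierOne_affine g i
    rw [Finset.sum_congr rfl (fun i _ => h2 i), ← Finset.mul_sum]
    have hb := conical_bound (w := w) (fun x => (1 + g x) / 2)
      (by
        intro x
        rcases hf (flip e x) with h | h <;> simp [hg, h])
      (fun j => flipCube e (ρ j)) c hc
      (by intro j; rw [codim_flip]; exact hw j)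
      (by
        intro x
        show (1 + f (flip e x)) / 2 = _
        rw [hrep (flip e x)]
        apply Finset.sum_congr rfl
        intro j _
        rw [cubeInd_flip])
    have hs : Real.sqrt (w / Real.exp 1) = Real.sqrt w * Real.exp (-(1 / 2)) := by
      rw [Real.sqrt_div (Nat.cast_nonneg w), ← Real.exp_half, Real.exp_neg, div_eq_mul_inv]
    rw [hs]
    linarith

end Vale.Agent.Results.P047.ConicalJunta
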