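import Vale.Agent.P047.Lin.Main

namespace Vale.Agent.Results.P047.LinearImprovement

open Finset Vale.Agent.P047

/-- Every `f : {-1,1}^n → {-1,1}` of degree at most `d`, `d ≥ 2`, satisfies
`∑ |\hat f({i})| ≤ (59/60) d`; that is, `M(d) ≤ (59/60) d`. -/
theorem result {n d : ℕ} (hd : 2 ≤ d) (f : (Fin n → Bool) → ℝ)
    (hf : ∀ x, f x = 1 ∨ f x = -1)
    (hdeg : ∀ S : Finset (Fin n), d < S.card → cubeFourier f S = 0) :
    ∑ i : Fin n, |cubeFourier f {i}| ≤ 59 / 60 * d :=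
  sum_abs_fourier_le hd f hf hdeg

end Vale.Agent.Results.P047.LinearImprovement
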