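import Vale.Agent.P047.Lin.Main

namespace Vale.Agent.Results.P047.SupremumForm

open Finset

/-- The bound `M(d) ≤ (59/60) d`, `d ≥ 2`, written with Mathlib notions only.
The cube `{-1,1}^n` is `Fin n → Bool`, the bit `x i` standing for the sign
`if x i then 1 else -1`, and `\hat f(S) = (∑ x, f x * ∏ i ∈ S, sign (x i)) / 2 ^ n`.
First part: every Boolean `f` of degree at most `d` has `∑ |\hat f({i})| ≤ (59/60) d`.
Second part: the set of all values `∑ \hat f({i})` (over all `n ≥ 1` and all such `f`) has a least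
upper bound `M`, which is the number `M(d)` of the problem, and `1 ≤ M ≤ (59/60) d`. -/
theorem result (d : ℕ) (hd : 2 ≤ d) :
    (∀ (n : ℕ) (f : (Fin n → Bool) → ℝ), (∀ x, f x = 1 ∨ f x = -1) →
      (∀ S : Finset (Fin n), d < S.card →
        (∑ x : Fin n → Bool, f x * ∏ i ∈ S, (if x i then (1 : ℝ) else -1)) / 2 ^ n = 0) →
      ∑ i : Fin n, |(∑ x : Fin n → Bool, f x * (if x i then (1 : ℝ) else -1)) / 2 ^ n|
        ≤ 59 / 60 * d) ∧
    ∃ M : ℝ, IsLUB {s : ℝ | ∃ (n : ℕ) (f : (Fin n → Bool) → ℝ), 1 ≤ n ∧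
        (∀ x, f x = 1 ∨ f x = -1) ∧
        (∀ S : Finset (Fin n), d < S.card →
          (∑ x : Fin n → Bool, f x * ∏ i ∈ S, (if x i then (1 : ℝ) else -1)) / 2 ^ n = 0) ∧
        s = ∑ i : Fin n, (∑ x : Fin n → Bool, f x * (if x i then (1 : ℝ) else -1)) / 2 ^ n} M ∧
      1 ≤ M ∧ M ≤ 59 / 60 * d := by
  have key : ∀ (n : ℕ) (f : (Fin n → Bool) → ℝ), (∀ x, f x = 1 ∨ f x = -1) →
      (∀ S : Finset (Fin n), d < S.card →
        (∑ x : Fin n → Bool, f x * ∏ i ∈ S, (if x i then (1 : ℝ) else -1)) / 2 ^ n = 0) →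
      ∑ i : Fin n, |(∑ x : Fin n → Bool, f x * (if x i then (1 : ℝ) else -1)) / 2 ^ n|
        ≤ 59 / 60 * d := by
    intro n f hf hdeg
    have h := Vale.Agent.P047.sum_abs_fourier_le hd f hf hdeg
    have e : ∀ i : Fin n, Vale.Agent.P047.cubeFourier f {i}
        = (∑ x : Fin n → Bool, f x * (if x i then (1 : ℝ) else -1)) / 2 ^ n := by
      intro i
      unfold Vale.Agent.P047.cubeFourier
      simp only [Finset.prod_singleton, Vale.Agent.P047.sgn]
    simp only [e] at h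
    exact h
  refine ⟨key, ?_⟩
  set V : Set ℝ := {s : ℝ | ∃ (n : ℕ) (f : (Fin n → Bool) → ℝ), 1 ≤ n ∧
        (∀ x, f x = 1 ∨ f x = -1) ∧
        (∀ S : Finset (Fin n), d < S.card →
          (∑ x : Fin n → Bool, f x * ∏ i ∈ S, (if x i then (1 : ℝ) else -1)) / 2 ^ n = 0) ∧
        s = ∑ i : Fin n, (∑ x : Fin n → Bool, f x * (if x i then (1 : ℝ) else -1)) / 2 ^ n}
    with hV
  have hub : ∀ s ∈ V, s ≤ 59 / 60 * d := by
    rintro s ⟨n, f, _, hf, hdeg, rfl⟩
    refine le_trans (Finset.sum_le_sum (fun i _ => le_abs_self _)) (key n f hf hdeg)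
  have h1 : (1 : ℝ) ∈ V := by
    refine ⟨1, fun x => if x 0 then 1 else -1, le_refl 1, ?_, ?_, ?_⟩
    · intro x
      by_cases h : x 0 <;> simp [h]
    · intro S hS
      exfalso
      have := Finset.card_le_univ S
      simp only [Fintype.card_fin] at this
      omega
    · have : ∀ x : Fin 1 → Bool,
          (if x 0 then (1 : ℝ) else -1) * (if x 0 then (1 : ℝ) else -1) = 1 := by
        intro x
        by_cases h : x 0 <;> simp [h]
      simp only [Fin.sum_univ_one, this, Finset.sum_const, Finset.card_univ, Fintype.card_fun,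
        Fintype.card_bool, Fintype.card_fin]
      norm_num
  have hne : V.Nonempty := ⟨1, h1⟩
  have hbdd : BddAbove V := ⟨59 / 60 * d, hub⟩
  exact ⟨sSup V, isLUB_csSup hne hbdd, le_csSup hbdd h1, csSup_le hne hub⟩

end Vale.Agent.Results.P047.SupremumForm
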