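import Vale.Agent.Results.P047.ConicalJunta

namespace Vale.Agent.Results.P047.UnambiguousDNF

open Finset Vale.Agent.P047

/-- If `f : {-1,1}^n → {-1,1}` and `f⁻¹(1)` is the disjoint union of subcubes of codimension at
most `w`, then `f` has degree at most `w` and `∑ |\hat f({i})| ≤ 2 sqrt (w / e)`. -/
theorem result {n w : ℕ} {ι : Type} [Fintype ι] (f : (Fin n → Bool) → ℝ)
    (hf : ∀ x, f x = 1 ∨ f x = -1)
    (ρ : ι → Fin n → Option Bool)
    (hw : ∀ j, codim (ρ j) ≤ w)
    (hdisj : ∀ j k x, InCube (ρ j) x → InCube (ρ k) x → j = k)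
    (hunion : ∀ x, f x = 1 ↔ ∃ j, InCube (ρ j) x) :
    (∀ S : Finset (Fin n), w < S.card → cubeFourier f S = 0) ∧
      ∑ i, |cubeFourier f {i}| ≤ 2 * Real.sqrt (w / Real.exp 1) := by
  classical
  apply Vale.Agent.Results.P047.ConicalJunta.result f hf ρ (fun _ => 1) (fun _ => zero_le_one) hw
  intro x
  have hind : ∀ j, cubeInd (ρ j) x = if InCube (ρ j) x then 1 else 0 := by
    intro j
    unfold cubeInd InCube
    congr
  by_cases h : f x = 1
  · obtain ⟨j, hj⟩ := (hunion x).mp h
    rw [h, Finset.sum_eq_single j]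
    · rw [hind j, if_pos hj]; norm_num
    · intro k _ hk
      rw [hind k, if_neg]
      · simp
      · intro hk'
        exact hk (hdisj k j x hk' hj)
    · intro hj'
      exact absurd (Finset.mem_univ j) hj'
  · have h' : f x = -1 := by
      rcases hf x with h1 | h1
      · exact absurd h1 h
      · exact h1
    rw [h', Finset.sum_eq_zero]
    · norm_num
    · intro k _
      rw [hind k, if_neg]
      · simp
      · intro hk
        exact h ((hunion x).mpr ⟨k, hk⟩)

end Vale.Agent.Results.P047.UnambiguousDNF
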